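import Vale.Agent.P033.Poly

/-!
Local congruences at an odd prime.
-/

open Polynomial IsLocalRing

namespace Vale.Agent.P033

theorem map_aeval {R S : Type} [CommRing R] [CommRing S] [Algebra ℤ R] [Algebra ℤ S]
    (φ : R →+* S) (x : R) (D : ℤ[X]) : φ (aeval x D) = aeval (φ x) D := by
  rw [aeval_def, aeval_def, hom_eval₂]
  congr 1
  exact RingHom.ext_int _ _

theorem aeval_mem {R : Type} [CommRing R] {S : Subring R} {x : R} (hx : x ∈ S) (D : ℤ[X]) :
    aeval x D ∈ S := by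
  rw [show x = S.subtype ⟨x, hx⟩ from rfl, ← map_aeval]
  exact Subtype.property _

variable {K : Type} [Field K] {V : ValuationSubring K}

theorem root_mem (V : ValuationSubring K) {z : K} {m : ℕ} (hm : m ≠ 0) (h : z ^ m = 1) : z ∈ V := by
  refine (V.mem_or_inv_mem z).elim id fun h1 => ?_
  obtain ⟨m, rfl⟩ := Nat.exists_eq_succ_of_ne_zero hm
  have : z = z⁻¹ ^ m := by rw [inv_pow]; exact eq_inv_of_mul_eq_one_right (by rwa [← pow_succ])
  rw [this]
  exact pow_mem h1 m

theorem inv_mem {a : V} (h : residue V a ≠ 0) : (a : K) ≠ 0 ∧ (a : K)⁻¹ ∈ V := by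
  obtain ⟨b, hb⟩ := ((residue_ne_zero_iff_isUnit a).1 h).exists_right_inv
  have : (a : K) * b = 1 := congrArg Subtype.val hb
  exact ⟨left_ne_zero_of_mul_eq_one this, by rw [← eq_inv_of_mul_eq_one_right this]; exact b.2⟩

/-- Principal units. -/
def PU (V : ValuationSubring K) (x : K) : Prop :=
  ∃ a b : V, residue V a = residue V b ∧ residue V b ≠ 0 ∧ x = a / b

theorem PU.one : PU V 1 := ⟨1, 1, rfl, by simp, by simp⟩

theorem PU.mul {x y : K} : PU V x → PU V y → PU V (x * y) := by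
  rintro ⟨a, b, h1, h2, rfl⟩ ⟨c, d, h3, h4, rfl⟩
  exact ⟨a * c, b * d, by simp [h1, h3], by simp [h2, h4], by simp [div_mul_div_comm]⟩

theorem PU.inv {x : K} : PU V x → PU V x⁻¹ := by
  rintro ⟨a, b, h1, h2, rfl⟩
  exact ⟨b, a, h1.symm, h1 ▸ h2, inv_div _ _⟩

theorem PU.pow {x : K} (h : PU V x) (n : ℕ) : PU V (x ^ n) := by
  induction n with
  | zero => simpa using PU.one
  | succ n ih => rw [pow_succ]; exact ih.mul h

theorem PU.zpow {x : K} (h : PU V x) (n : ℤ) : PU V (x ^ n) := by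
  cases n with
  | ofNat n => simpa using h.pow n
  | negSucc n => simpa using (h.pow (n + 1)).inv

theorem PU.mem {x : K} : PU V x → x ∈ V := by
  rintro ⟨a, b, -, h2, rfl⟩
  rw [div_eq_mul_inv]
  exact mul_mem a.2 (inv_mem h2).2

theorem PU.eq_one (h2 : residue V 2 ≠ 0) (a : ℕ) : ∀ x : K, PU V x → x ^ 2 ^ a = 1 → x = 1 := by
  induction a with
  | zero => simp
  | succ a ih =>
    intro x hx h
    rw [pow_succ', pow_mul] at h
    refine (sq_eq_one_iff.1 (ih _ (hx.pow 2) h)).resolve_right ?_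
    obtain ⟨b, c, h3, h4, rfl⟩ := hx
    intro h5
    rw [div_eq_iff (inv_mem h4).1] at h5
    have : b = -c := Subtype.ext (by simpa using h5)
    rw [this, map_neg] at h3
    exact mul_ne_zero h2 h4 (by rw [map_ofNat]; linear_combination -h3)

theorem exists_unram {p : ℕ} (hp : p.Prime) (hp2 : Odd p) (V : ValuationSubring K) {m : ℕ}
    (hm : ¬p ∣ m) : ∃ (O : Subring K) (j : O →+* V), (∀ a, (j a : K) = a) ∧
      (∀ z, z ^ m = 1 → z ∈ O) ∧ ∀ a, ((residue V).comp j) a = 0 → (p : O) ∣ a := by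
  have m0 : m ≠ 0 := by rintro rfl; simp at hm
  let A := Subring.closure {z : K | z ^ m = 1}
  have AV : A ≤ V.toSubring := Subring.closure_le.2 fun z hz => root_mem V m0 hz
  have q1 : p ^ m.totient ≡ 1 [MOD m] := Nat.ModEq.pow_totient ((Nat.Prime.coprime_iff_not_dvd hp).2 hm)
  obtain ⟨q, hq⟩ : ∃ q, p ^ m.totient = q + 2 := ⟨p ^ m.totient - 2, by
    have := Nat.one_lt_pow (Nat.totient_pos.2 (Nat.pos_of_ne_zero m0)).ne' hp.one_lt
    omega⟩
  have frob : ∀ a ∈ A, ∃ b ∈ A, a ^ p ^ m.totient = a + p * b := by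
    intro a ha
    induction ha using Subring.closure_induction with
    | mem z hz => exact ⟨0, zero_mem _, by rw [pow_eq_pow_of_modEq q1 hz]; simp⟩
    | zero => exact ⟨0, zero_mem _, by simp [hp.ne_zero]⟩
    | one => exact ⟨0, zero_mem _, by simp⟩
    | add a b ha hb h1 h2 =>
      obtain ⟨c, hc, h1⟩ := h1
      obtain ⟨d, hd, h2⟩ := h2
      obtain ⟨r, hr⟩ := exists_add_pow_prime_pow_eq hp (⟨a, ha⟩ : A) ⟨b, hb⟩ m.totient
      have := congrArg Subtype.val hr
      push_cast at this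
      exact ⟨c + d + a * b * r, add_mem (add_mem hc hd) (mul_mem (mul_mem ha hb) r.2),
        by rw [this, h1, h2]; ring⟩
    | neg a _ h1 =>
      obtain ⟨c, hc, h1⟩ := h1
      exact ⟨-c, neg_mem hc, by rw [hp2.pow.neg_pow, h1]; ring⟩
    | mul a b ha hb h1 h2 =>
      obtain ⟨c, hc, h1⟩ := h1
      obtain ⟨d, hd, h2⟩ := h2
      exact ⟨c * b + a * d + p * c * d, add_mem (add_mem (mul_mem hc hb) (mul_mem ha hd))
        (mul_mem (mul_mem (natCast_mem _ _) hc) hd), by rw [mul_pow, h1, h2]; ring⟩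
  let O : Subring K :=
    { carrier := {x | ∃ s : V, (s : K) ∈ A ∧ residue V s ≠ 0 ∧ x * s ∈ A}
      mul_mem' := by
        rintro x y ⟨s, h1, h2, h3⟩ ⟨t, h4, h5, h6⟩
        exact ⟨s * t, mul_mem h1 h4, by simp [h2, h5], by
          simpa [mul_mul_mul_comm] using mul_mem h3 h6⟩
      one_mem' := ⟨1, one_mem A, by simp, by simp⟩
      add_mem' := by
        rintro x y ⟨s, h1, h2, h3⟩ ⟨t, h4, h5, h6⟩
        refine ⟨s * t, mul_mem h1 h4, by simp [h2, h5], ?_⟩
        convert add_mem (mul_mem h3 h4) (mul_mem h6 h1) using 1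
        push_cast; ring
      zero_mem' := ⟨1, one_mem A, by simp, by simp⟩
      neg_mem' := by
        rintro x ⟨s, h1, h2, h3⟩
        exact ⟨s, h1, h2, by simpa using h3⟩ }
  have OV : O ≤ V.toSubring := by
    rintro x ⟨s, -, h2, h3⟩
    have := mul_mem (AV h3) (inv_mem h2).2
    rwa [mul_inv_cancel_right₀ (inv_mem h2).1] at this
  let j : O →+* V := Subring.inclusion OV
  have hker : ∀ a, ((residue V).comp j) a = 0 → (p : O) ∣ a := by
    rintro ⟨x, s, h1, h2, h3⟩ h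
    obtain ⟨b, hb, h4⟩ := frob _ h3
    let a : V := j ⟨x, s, h1, h2, h3⟩ * s
    have h5 : residue V (s * (a ^ (q + 1) - 1)) ≠ 0 := by
      have : residue V a = 0 := by rw [map_mul, show residue V (j _) = 0 from h, zero_mul]
      simp [this, h2]
    have h6 := (inv_mem h5).1
    refine ⟨⟨b / (s * (a ^ (q + 1) - 1) : V), _, ?_, h5, by rwa [div_mul_cancel₀ _ h6]⟩,
      Subtype.ext ?_⟩
    · exact mul_mem h1 (sub_mem (pow_mem h3 _) (one_mem _))
    · rw [hq] at h4
      change x = p * (b / _)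
      rw [← mul_div_assoc, eq_div_iff h6]
      change x * (s * ((x * s) ^ (q + 1) - 1)) = _
      linear_combination h4
  exact ⟨O, j, fun _ => rfl, fun z hz => ⟨1, one_mem A, by simp,
    mul_mem (Subring.subset_closure hz) (one_mem A)⟩, hker⟩

theorem local_cong [CharZero K] {p : ℕ} (hp : p.Prime) (hp2 : Odd p) (hV : residue V p = 0)
    {N m n e : ℕ} (hn : n = p ^ (N + 1) * m) (hm : ¬p ∣ m) {f : ℤ[X]}
    (hf : X ^ n - 1 ∣ f * expand ℤ e f - C (n : ℤ)) {z ζ : K} (hz : z ^ m = 1) (hζ : ζ ^ p = 1) :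
    PU V (aeval (ζ * z) f / aeval z f) := by
  have := Fact.mk hp
  have : CharP (ResidueField V) p := (CharP.charP_iff_prime_eq_zero hp).2 (by simpa using hV)
  obtain ⟨O, j, hj, hO, hker⟩ := exists_unram hp hp2 V hm
  obtain ⟨z', rfl⟩ : ∃ z' : O, (z' : K) = z := ⟨⟨z, hO z hz⟩, rfl⟩
  have hz' : z' ^ m = 1 := Subtype.ext hz
  have h1 := map_dvd (aeval (C z' * X : O[X])) hf
  have e1 : (C z' * X : O[X]) ^ n = X ^ n := by
    rw [mul_pow, ← C_pow, hn, mul_comm _ m, pow_mul z', hz']; simp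
  rw [map_sub, map_sub, map_pow, aeval_X, map_one, e1, map_mul] at h1
  have h2 : X ^ p ^ (N + 1) - 1 ∣ (X : O[X]) ^ n - 1 := by
    simpa [hn, pow_mul] using sub_dvd_pow_sub_pow (X ^ p ^ (N + 1) : O[X]) 1 m
  have e2 : aeval (C z' * X : O[X]) (C (n : ℤ)) = p ^ (N + 1) * C (m : O) := by simp [hn]
  rw [e2] at h1
  obtain ⟨c, f', h3, h4⟩ := descent hker (by exact_mod_cast hp.ne_zero) (c := m)
    (by simpa [CharP.cast_eq_zero_iff _ p] using hm) N (N + 1) le_rfl _ _ (h2.trans h1)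
  have ev : ∀ y : V, y ^ p = 1 → aeval (y * z' : K) f = (p : K) ^ c * (f'.eval₂ j y : V) ∧
      residue V (f'.eval₂ j y) = residue V (j (f'.eval 1)) := fun y hy => by
    constructor
    · have h5 := map_dvd (eval₂RingHom j y) h3
      rw [map_sub, map_sub, map_aeval, map_pow, map_mul, map_mul, map_pow, map_natCast, map_one,
        coe_eval₂RingHom, eval₂_X, eval₂_C, hy, sub_self, zero_dvd_iff, sub_eq_zero] at h5
      have h6 := congrArg V.subtype h5
      rw [map_aeval, map_mul, map_mul, map_pow, map_natCast] at h6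
      rw [mul_comm, ← hj]
      exact h6
    · have h5 : residue V y = 1 := by
        have : (residue V y - 1) ^ p = 0 := by rw [sub_pow_char, ← map_pow, hy]; simp
        exact sub_eq_zero.1 (pow_eq_zero_iff hp.ne_zero |>.1 this)
      rw [hom_eval₂, h5, ← ((residue V).comp j).map_one, eval₂_at_apply]
      rfl
  obtain ⟨a1, a2⟩ := ev ⟨ζ, root_mem V hp.ne_zero hζ⟩ (Subtype.ext hζ)
  obtain ⟨a3, a4⟩ := ev 1 (one_pow _)
  refine ⟨_, _, a2.trans a4.symm, a4 ▸ h4, ?_⟩
  rw [OneMemClass.coe_one, one_mul] at a3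
  rw [a1, a3, mul_div_mul_left _ _ (pow_ne_zero _ (by exact_mod_cast hp.ne_zero))]

theorem isIntegral_of_mem {x : K} (h : ∀ V : ValuationSubring K, x ∈ V) : IsIntegral ℤ x := by
  by_contra hx
  obtain ⟨V, -, h2⟩ := Subring.exists_le_valuationSubring_of_isIntegrallyClosedIn
    (R := (integralClosure ℤ K).toSubring) hx
  exact h2 (h V)

theorem exists_val (K : Type) [Field K] [CharZero K] {p : ℕ} (hp : p.Prime) :
    ∃ V : ValuationSubring K, residue V p = 0 := by
  by_contra hc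
  push Not at hc
  have h := isIntegral_of_mem (x := (p : K)⁻¹) fun V => by simpa using (inv_mem (hc V)).2
  rw [show (p : K)⁻¹ = algebraMap ℚ K (p : ℚ)⁻¹ by simp,
    isIntegral_algebraMap_iff (algebraMap ℚ K).injective, IsIntegrallyClosed.isIntegral_iff] at h
  obtain ⟨y, hy⟩ := h
  have : (y : ℚ) * p = 1 := by
    rw [show (y : ℚ) = (p : ℚ)⁻¹ from hy]; exact inv_mul_cancel₀ (by exact_mod_cast hp.ne_zero)
  have h2 : (p : ℤ) ∣ 1 := Dvd.intro_left y (by exact_mod_cast this)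
  exact hp.not_dvd_one (by exact_mod_cast h2)

end Vale.Agent.P033
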