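import Vale.Agent.P033.Local

/-!
The alternating product over sets of odd primes, and the end of the proof.
-/

open Polynomial IsLocalRing Finset
open scoped Classical

namespace Vale.Agent.P033

theorem sum_four {K : Type} [Field K] {ι : K} (hι : IsPrimitiveRoot ι 4) (V : ValuationSubring K)
    {g : Fin 4 → K} (hg : g ∈ Algebra.adjoin V {fun k : Fin 4 => ι ^ (k : ℕ)}) :
    ∃ a ∈ V, ∑ k, g k = 4 * a := by
  rw [Algebra.adjoin_singleton_eq_range_aeval] at hg
  obtain ⟨G, rfl⟩ := hg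
  induction G using Polynomial.induction_on' with
  | add a b ha hb =>
    obtain ⟨x, h1, h2⟩ := ha
    obtain ⟨y, h3, h4⟩ := hb
    exact ⟨x + y, add_mem h1 h3, by
      simp only [map_add, Pi.add_apply, sum_add_distrib, mul_add, ← h2, ← h4]⟩
  | monomial i a =>
    have e : ∑ k : Fin 4, (aeval (fun k : Fin 4 => ι ^ (k : ℕ))).toRingHom (monomial i a) k =
        a * ∑ k ∈ range 4, (ι ^ i) ^ k := by
      rw [← Fin.sum_univ_eq_sum_range, mul_sum]
      refine sum_congr rfl fun k _ => ?_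
      simp [aeval_monomial, ← pow_mul, mul_comm i]
    rw [e]
    by_cases h : ι ^ i = 1
    · exact ⟨a, a.2, by simp [h]; ring⟩
    · refine ⟨0, zero_mem _, ?_⟩
      rw [geom_sum_eq h, ← pow_mul, mul_comm i, pow_mul, hι.pow_eq_one]
      simp

theorem odd_part {K : Type} [Field K] [NumberField K] {u n e : ℕ} {ω : K}
    (hω : IsPrimitiveRoot ω n) (hu : Odd u) (h1 : 1 < u) (hn : n = 4 * u ^ 2) (he : e + 1 = n)
    {f D : ℤ[X]} (hD : f = ∑ i ∈ range n, X ^ i - 2 * D)
    (hf : X ^ n - 1 ∣ f * expand ℤ e f - C (n : ℤ)) : False := by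
  have n0 : n ≠ 0 := by omega
  have root : ∀ d, d ∣ n → IsPrimitiveRoot (ω ^ (n / d)) d := fun d hd =>
    hω.pow (Nat.pos_of_ne_zero n0) (Nat.div_mul_cancel hd).symm
  obtain ⟨ι, hι⟩ : ∃ ι : K, IsPrimitiveRoot ι 4 := ⟨_, root 4 ⟨_, hn⟩⟩
  obtain ⟨ζ, hζ⟩ : ∃ ζ : ℕ → K, ∀ p ∈ u.primeFactors, IsPrimitiveRoot (ζ p) p :=
    ⟨fun p => ω ^ (n / p), fun p hp => root p (by
      rw [hn]; exact ((Nat.dvd_of_mem_primeFactors hp).pow two_ne_zero).mul_left 4)⟩
  have u0 : (u : K) ≠ 0 := by exact_mod_cast (by omega : u ≠ 0)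
  obtain ⟨w, hw⟩ : ∃ w : K → K, ∀ z, w z = aeval z f / 2 := ⟨_, fun _ => rfl⟩
  have w1 : ∀ z, z ^ n = 1 → w z * w (z ^ e) = u ^ 2 := fun z hz => by
    have := map_dvd (aeval z) hf
    simp only [map_sub, map_pow, aeval_X, hz, map_one, sub_self, zero_dvd_iff, map_mul,
      expand_aeval, aeval_C, sub_eq_zero] at this
    simp only [hw]
    rw [div_mul_div_comm, this, hn]
    simp
    ring
  have w0 : ∀ z, z ^ n = 1 → w z ≠ 0 := fun z hz h => by
    have := w1 z hz
    rw [h, zero_mul] at this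
    exact pow_ne_zero 2 u0 this.symm
  have w2 : ∀ z, z ^ n = 1 → w z = (if z = 1 then 2 * (u : K) ^ 2 else 0) - aeval z D :=
    fun z hz => by
      simp only [hw, hD, map_sub, map_sum, map_pow, aeval_X, map_mul, map_ofNat]
      split_ifs with h
      · simp [h, hn]; ring
      · rw [geom_sum_eq h, hz]; simp; ring
  have pe : ∀ z : K, z ^ n = 1 → (z ^ e) ^ n = 1 := fun z hz => by
    rw [← pow_mul, mul_comm, pow_mul, hz, one_pow]
  have w3 : ∀ V : ValuationSubring K, ∀ z, z ^ n = 1 → w z ∈ V := fun V z hz => by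
    rw [w2 z hz]
    refine sub_mem ?_ (aeval_mem (S := V.toSubring) (root_mem V n0 hz) D)
    split_ifs
    exacts [mul_mem (ofNat_mem _ 2) (pow_mem (natCast_mem _ _) 2), zero_mem _]
  let z : Finset ℕ → Fin 4 → K := fun S k => (∏ p ∈ S, ζ p) * ι ^ (k : ℕ)
  have zm : ∀ S ⊆ u.primeFactors, ∀ k m, 4 ∣ m → (∀ p ∈ S, p ∣ m) → z S k ^ m = 1 :=
    fun S hS k m h4 h => by
      simp only [z]
      rw [mul_pow, ← prod_pow, prod_eq_one fun p hp => ((hζ p (hS hp)).pow_eq_one_iff_dvd m).2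
        (h p hp), ← pow_mul, one_mul]
      exact (hι.pow_eq_one_iff_dvd _).2 (h4.mul_left _)
  have zn : ∀ S ⊆ u.primeFactors, ∀ k, z S k ^ n = 1 := fun S hS k =>
    zm S hS k n ⟨_, hn⟩ fun p hp => by
      rw [hn]; exact ((Nat.dvd_of_mem_primeFactors (hS hp)).pow two_ne_zero).mul_left 4
  let L : Fin 4 → K := fun k => ∏ S ∈ u.primeFactors.powerset, w (z S k) ^ ((-1 : ℤ) ^ S.card)
  have pair : ∀ p ∈ u.primeFactors, ∀ k, L k = ∏ S ∈ (u.primeFactors.erase p).powerset,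
      (w (z (insert p S) k) / w (z S k)) ^ (-(-1 : ℤ) ^ S.card) := fun p hp k => by
    simp only [L]
    conv_lhs => rw [← insert_erase hp]
    rw [prod_powerset_insert (notMem_erase _ _), ← prod_mul_distrib]
    refine prod_congr rfl fun S hS => ?_
    rw [card_insert_of_notMem fun h => notMem_erase _ _ (mem_powerset.1 hS h), pow_succ,
      div_zpow, zpow_neg (w (z S k)), div_inv_eq_mul, mul_neg_one, mul_comm]
  have pu : ∀ p ∈ u.primeFactors, ∀ V : ValuationSubring K, residue V p = 0 → ∀ k, PU V (L k) := by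
    intro p hp V hV k
    have pp := Nat.prime_of_mem_primeFactors hp
    have pu := Nat.dvd_of_mem_primeFactors hp
    have po : Odd p := hu.of_dvd_nat pu
    obtain ⟨N, m, hm, hN⟩ := Nat.exists_eq_pow_mul_and_not_dvd n0 p pp.ne_one
    obtain ⟨N, rfl⟩ : ∃ M, N = M + 1 := ⟨N - 1, by
      have : N ≠ 0 := by
        rintro rfl
        exact hm (by rw [pow_zero, one_mul] at hN; rw [← hN, hn]; exact (pu.pow two_ne_zero).mul_left 4)
      omega⟩
    have dv : ∀ d, d ∣ n → d.Coprime p → d ∣ m := fun d h1 h2 =>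
      (h2.pow_right _).dvd_of_dvd_mul_left (hN ▸ h1)
    rw [pair p hp]
    refine prod_induction _ _ (fun _ _ => PU.mul) PU.one fun S hS => PU.zpow ?_ _
    have hS' := mem_powerset.1 hS
    have := local_cong pp po hV hN hm hf (zm S (hS'.trans (erase_subset _ _)) k m
      (dv 4 ⟨_, hn⟩ ((Nat.coprime_two_left.2 po).pow_left 2)) fun q hq => dv q ?_ ?_)
      (hζ p hp).pow_eq_one
    · simp only [hw, z] at this ⊢
      rwa [prod_insert fun h => notMem_erase _ _ (hS' h), mul_assoc,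
        div_div_div_cancel_right₀ two_ne_zero]
    · rw [hn]
      exact ((Nat.dvd_of_mem_primeFactors (mem_of_mem_erase (hS' hq))).pow two_ne_zero).mul_left 4
    · exact (Nat.coprime_primes (Nat.prime_of_mem_primeFactors (mem_of_mem_erase (hS' hq))) pp).2
        (ne_of_mem_erase (hS' hq))
  have winv : ∀ y, y ^ n = 1 → (w y)⁻¹ = w (y ^ e) * ((u : K)⁻¹) ^ 2 := fun y hy =>
    (eq_inv_of_mul_eq_one_right (by rw [← mul_assoc, w1 y hy, ← mul_pow]; simp [u0])).symm
  obtain ⟨p0, hp0⟩ := Nat.nonempty_primeFactors.2 h1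
  have int : ∀ k, IsIntegral ℤ (L k) := fun k => isIntegral_of_mem fun V => by
    by_cases h : ∃ p ∈ u.primeFactors, residue V p = 0
    · obtain ⟨p, h1, h2⟩ := h
      exact (pu p h1 V h2 k).mem
    · push Not at h
      have h2 : residue V u ≠ 0 := by
        rw [← Nat.factorization_prod_pow_eq_self (by omega : u ≠ 0), Finsupp.prod]
        push_cast
        rw [map_prod]
        exact prod_ne_zero_iff.2 fun p hp => by rw [map_pow]; exact pow_ne_zero _ (h p hp)
      refine prod_mem fun S hS => ?_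
      have h3 := zn S (mem_powerset.1 hS) k
      rcases neg_one_pow_eq_or ℤ S.card with h4 | h4 <;> rw [h4]
      · simpa using w3 V _ h3
      · rw [zpow_neg_one, winv _ h3]
        exact mul_mem (w3 V _ (pe _ h3)) (pow_mem (by simpa using (inv_mem h2).2) 2)
  have nrm : ∀ φ : K →+* ℂ, ∀ y, y ^ n = 1 → ‖φ (w y)‖ = u := fun φ y hy => by
    have h2 : φ y ^ n = 1 := by rw [← map_pow, hy, map_one]
    have h3 : φ (y ^ e) = starRingEnd ℂ (φ y) := by
      rw [← Complex.inv_eq_conj (Complex.norm_eq_one_of_pow_eq_one h2 n0), map_pow]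
      exact eq_inv_of_mul_eq_one_left (by rw [← pow_succ, he, h2])
    have h4 : φ (w (y ^ e)) = starRingEnd ℂ (φ (w y)) := by
      simp only [hw, map_div₀, map_aeval, h3, map_ofNat]
    have h5 := congrArg (fun x => ‖φ x‖) (w1 y hy)
    simp only [map_mul, h4, norm_mul, RCLike.norm_conj, map_pow, norm_pow, ← sq] at h5
    rw [map_natCast, Complex.norm_natCast] at h5
    exact (pow_left_inj₀ (norm_nonneg _) (Nat.cast_nonneg _) two_ne_zero).1 h5
  have tor : ∀ k, ∃ r, Odd r ∧ L k ^ r = 1 := fun k => by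
    obtain ⟨r, h2, h3⟩ := NumberField.Embeddings.pow_eq_one_of_norm_eq_one K ℂ (int k) fun φ => by
      rw [pair p0 hp0, map_prod, norm_prod]
      refine prod_eq_one fun S hS => ?_
      have hS' := (mem_powerset.1 hS).trans (erase_subset _ _)
      rw [map_zpow₀, norm_zpow, map_div₀, norm_div, nrm φ _ (zn S hS' k),
        nrm φ _ (zn _ (insert_subset hp0 hS') k), div_self (by positivity), one_zpow]
    obtain ⟨a, r, h4, rfl⟩ := Nat.exists_eq_two_pow_mul_odd h2.ne'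
    have pp := Nat.prime_of_mem_primeFactors hp0
    obtain ⟨V, hV⟩ := exists_val K pp
    refine ⟨r, h4, PU.eq_one (V := V) (fun h => ?_) a _ ((pu p0 hp0 V hV k).pow r)
      (by rwa [← pow_mul, mul_comm])⟩
    obtain ⟨c, hc⟩ := hu.of_dvd_nat (Nat.dvd_of_mem_primeFactors hp0)
    rw [hc] at hV
    push_cast at hV
    simp [h] at hV
  choose r hr1 hr2 using tor
  obtain ⟨s, hs⟩ : Odd (∏ k, r k) := prod_induction _ _ (fun _ _ => Odd.mul) odd_one fun k _ => hr1 k
  have hL : ∀ k, L k ^ (2 * s + 1) = 1 := fun k => by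
    obtain ⟨c, hc⟩ := dvd_prod_of_mem r (mem_univ k)
    rw [← hs, hc, pow_mul, hr2, one_pow]
  obtain ⟨V, hV⟩ := exists_val K Nat.prime_two
  have hu2 : residue V u ≠ 0 := by
    obtain ⟨c, rfl⟩ := hu
    push_cast at hV ⊢
    simp [hV]
  let t : Fin 4 → K := fun k => ι ^ (k : ℕ)
  let B := (Algebra.adjoin V {t}).toSubring
  have tB : t ∈ B := Algebra.subset_adjoin rfl
  have cB : ∀ a ∈ V, (fun _ => a) ∈ B := fun a ha => (Algebra.adjoin V {t}).algebraMap_mem ⟨a, ha⟩
  have DB : ∀ y ∈ B, (fun k => aeval (y k) D) ∈ B := fun y hy => by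
    convert aeval_mem hy D using 1
    ext k
    exact (map_aeval (Pi.evalRingHom (fun _ => K) k) y D).symm
  have zB : ∀ S ⊆ u.primeFactors, z S ∈ B := fun S hS => mul_mem (cB _ (prod_mem fun p hp =>
    root_mem V (Nat.prime_of_mem_primeFactors (hS hp)).ne_zero (hζ p (hS hp)).pow_eq_one)) tB
  have iB : (fun _ => ((u : K)⁻¹) ^ 2) ∈ B := cB _ (pow_mem (by simpa using (inv_mem hu2).2) 2)
  have e1 : ∀ y : K, y ^ n = 1 → (y ^ e = 1 ↔ y = 1) := fun y hy =>
    ⟨fun h => by rwa [← he, pow_succ, h, one_mul] at hy, fun h => by rw [h, one_pow]⟩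
  have wB : ∀ y ∈ B, (∀ k, y k ^ n = 1 ∧ y k ≠ 1) → (fun k => w (y k)) ∈ B := fun y hy h => by
    convert neg_mem (DB y hy) using 1
    ext k
    simp [w2 _ (h k).1, (h k).2]
  have z1 : ∀ S ⊆ u.primeFactors, S ≠ ∅ → ∀ k, z S k ≠ 1 := fun S hS h k h2 => by
    obtain ⟨p, hp⟩ := nonempty_iff_ne_empty.2 h
    have h3 := zm (S.erase p) ((erase_subset _ _).trans hS) k (4 * ∏ q ∈ S.erase p, q)
      (dvd_mul_right _ _) fun q hq => (dvd_prod_of_mem _ hq).mul_left 4
    have h4 : z S k = ζ p * z (S.erase p) k := by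
      simp only [z]; rw [← mul_assoc, mul_prod_erase _ _ hp]
    have h5 := congrArg (· ^ (4 * ∏ q ∈ S.erase p, q)) (h4.symm.trans h2)
    simp only [mul_pow, h3, mul_one, one_pow, (hζ p (hS hp)).pow_eq_one_iff_dvd] at h5
    have pp := Nat.prime_of_mem_primeFactors (hS hp)
    rcases (Nat.Prime.dvd_mul pp).1 h5 with h6 | h6
    · have := (hu.of_dvd_nat (Nat.dvd_of_mem_primeFactors (hS hp))).coprime_two_right.pow_right 2
      exact pp.ne_one (Nat.Coprime.eq_one_of_dvd this h6)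
    · obtain ⟨q, h7, h8⟩ := (Prime.dvd_finset_prod_iff pp.prime _).1 h6
      exact ne_of_mem_erase h7 ((Nat.prime_dvd_prime_iff_eq pp
        (Nat.prime_of_mem_primeFactors (hS (mem_of_mem_erase h7)))).1 h8).symm
  have tn : ∀ k, t k ^ n = 1 := fun k => by simpa [z] using zn ∅ (empty_subset _) k
  have a1 : (fun k => (w (t k))⁻¹ ^ (2 * s + 1)) ∈ B := by
    have : (fun k => (w (t k))⁻¹ ^ (2 * s + 1)) = (∏ S ∈ u.primeFactors.powerset.erase ∅,
        fun k => w (z S k) ^ ((-1 : ℤ) ^ S.card)) ^ (2 * s + 1) := by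
      ext k
      have := hL k
      simp only [L] at this
      rw [← mul_prod_erase _ _ (empty_mem_powerset _), mul_pow] at this
      rw [Pi.pow_apply, Finset.prod_apply, eq_inv_of_mul_eq_one_right this]
      simp [z, t]
    rw [this]
    refine pow_mem (prod_mem fun S hS => ?_) _
    have h2 := mem_powerset.1 (mem_of_mem_erase hS)
    have h3 := z1 S h2 (ne_of_mem_erase hS)
    rcases neg_one_pow_eq_or ℤ S.card with h4 | h4 <;> rw [h4]
    · simpa using wB _ (zB S h2) fun k => ⟨zn S h2 k, h3 k⟩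
    · simp only [zpow_neg_one, winv _ (zn S h2 _)]
      exact mul_mem (wB _ (pow_mem (zB S h2) e) fun k =>
        ⟨pe _ (zn S h2 k), mt (e1 _ (zn S h2 k)).1 (h3 k)⟩) iB
  let δ : Fin 4 → K := fun k => if t k = 1 then 1 else 0
  have δB : 4 * δ ∈ B := by
    convert sum_mem fun i (_ : i ∈ range 4) => pow_mem tB i using 1
    ext k
    simp only [δ, Pi.mul_apply, Finset.sum_apply, Pi.pow_apply]
    split_ifs with h
    · simp [h]
    · rw [geom_sum_eq h, ← pow_mul, mul_comm _ 4, pow_mul, hι.pow_eq_one]; simp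
  have uB : (fun _ => (u : K) ^ 2) ∈ B := cB _ (pow_mem (natCast_mem _ _) 2)
  have a2 : (fun k => w (t k) ^ 2) ∈ B := by
    convert add_mem (mul_mem (mul_mem δB uB) (sub_mem uB (DB t tB))) (pow_mem (DB t tB) 2) using 1
    ext k
    simp only [w2 _ (tn k), δ, Pi.add_apply, Pi.mul_apply, Pi.sub_apply, Pi.pow_apply,
      Pi.ofNat_apply]
    split_ifs <;> ring
  have a3 : (fun k => 2 * (u : K) ^ 2 * δ k) ∈ B := by
    convert add_mem (mul_mem a1 (pow_mem a2 (s + 1))) (DB t tB) using 1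
    ext k
    have := w0 _ (tn k)
    simp only [Pi.add_apply, Pi.mul_apply, Pi.pow_apply, ← pow_mul]
    rw [show 2 * (s + 1) = 2 * s + 1 + 1 by ring, pow_succ (w _), ← mul_assoc, ← mul_pow,
      inv_mul_cancel₀ this, one_pow, one_mul, w2 _ (tn k)]
    simp only [δ]
    split_ifs <;> ring
  obtain ⟨a, h2, h3⟩ := sum_four hι V a3
  rw [← mul_sum, sum_eq_single 0 (fun k _ hk => if_neg fun h => hk (Fin.ext
    (Nat.eq_zero_of_dvd_of_lt ((hι.pow_eq_one_iff_dvd _).1 h) k.2))) (by simp)] at h3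
  have h4 : (u : V) ^ 2 = (2 : ℕ) * ⟨a, h2⟩ := Subtype.ext (by
    simp only [δ, t, Fin.val_zero, pow_zero, if_true] at h3
    change (u : K) ^ 2 = ((2 : ℕ) : K) * a
    push_cast
    refine mul_left_cancel₀ two_ne_zero ?_
    linear_combination h3)
  have := congrArg (residue V) h4
  rw [map_mul, hV, zero_mul, map_pow] at this
  exact pow_ne_zero 2 hu2 this

theorem pow_cong {M a b : ℕ} (h : a ≡ b [MOD M]) : (X : ℤ[X]) ^ M - 1 ∣ X ^ a - X ^ b := by
  have k : ∀ a, (X : ℤ[X]) ^ M - 1 ∣ X ^ a - X ^ (a % M) := fun a => by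
    conv_rhs => rw [← Nat.div_add_mod a M]
    rw [Nat.mul_add_mod, Nat.mod_mod, pow_add, pow_mul]
    exact ((sub_dvd_pow_sub_pow (X ^ M : ℤ[X]) 1 (a / M)).mul_right (X ^ (a % M))).trans
      (dvd_of_eq (by ring))
  have := dvd_sub (k a) (k b)
  rwa [h, sub_sub_sub_cancel_right] at this

theorem poly_main {n e : ℕ} (he : e + 1 = n) (h2 : Even n) {f D : ℤ[X]}
    (hD : f = ∑ i ∈ range n, X ^ i - 2 * D)
    (hf : X ^ n - 1 ∣ f * expand ℤ e f - C (n : ℤ)) : n = 4 := by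
  have n0 : n ≠ 0 := by omega
  have h1 : f.eval 1 ^ 2 = n := by
    simpa [sub_eq_zero, sq] using eval_dvd (x := 1) hf
  have R0 : f.eval 1 ≠ 0 := fun h => n0 (by rw [h] at h1; exact_mod_cast h1.symm)
  obtain ⟨b, u, hu, hb⟩ := Nat.exists_eq_two_pow_mul_odd (Int.natAbs_ne_zero.2 R0)
  have hn : n = (2 ^ b * u) ^ 2 := by
    rw [← hb]; exact_mod_cast (Int.natAbs_sq _).trans h1 |>.symm
  obtain rfl | b := b
  · rw [hn] at h2
    simp only [pow_zero, one_mul] at h2
    exact absurd h2 (Nat.not_even_iff_odd.2 hu.pow)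
  obtain rfl | b := b
  · by_contra h4
    have : NeZero n := ⟨n0⟩
    have : NeZero (n : ℚ) := ⟨by exact_mod_cast n0⟩
    obtain ⟨ω, hω⟩ := (CyclotomicField.isCyclotomicExtension n ℚ).exists_isPrimitiveRoot
      (Set.mem_singleton n) n0
    refine odd_part hω hu ?_ (by rw [hn]; ring) he hD hf
    by_contra h5
    have h6 : u = 1 := by have := hu.pos; omega
    exact h4 (by rw [hn, h6]; rfl)
  exfalso
  obtain ⟨v, hv, hv2, hR⟩ : ∃ v : ℤ, Odd v ∧ v ^ 2 = u ^ 2 ∧ f.eval 1 = -(2 ^ (b + 2) * v) := by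
    have hu' : Odd (u : ℤ) := by exact_mod_cast hu
    rcases Int.natAbs_eq_iff.1 hb with h | h
    · exact ⟨-u, hu'.neg, by ring, by rw [h]; push_cast; ring⟩
    · exact ⟨u, hu', rfl, by rw [h]; push_cast; ring⟩
  have hN : n = 2 ^ (2 * b + 1 + 3) * u ^ 2 := by rw [hn]; ring
  have hN' : (n : ℤ) = 2 ^ (2 * b + 1 + 3) * v ^ 2 := by rw [hv2, hN]; push_cast; ring
  have hD1 : D.eval 1 = 2 ^ (b + 1) * v + v ^ 2 * 2 ^ (2 * b + 1 + 2) := by
    have := congrArg (eval 1) hD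
    simp only [eval_sub, eval_finset_sum, eval_pow, eval_X, one_pow, sum_const, card_range,
      nsmul_eq_mul, mul_one, eval_mul, eval_ofNat, hR, hN'] at this
    refine mul_left_cancel₀ two_ne_zero ?_
    linear_combination this
  refine two_part (b + 1) (2 * b + 1) e D (v ^ 2) v (by omega) (he ▸ ⟨_, hN⟩) hv.pow hv hD1 ?_
  generalize hM : 2 ^ (2 * b + 1 + 3) = M at hN
  have hM' : (2 : ℤ[X]) ^ (2 * b + 1 + 3) = M := by rw [← hM]; push_cast; rfl
  have M0 : M ≠ 0 := hM ▸ by positivity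
  refine cancel_const (monic_X_pow_sub_C 1 M0) (c := 4) (by norm_num) ?_
  set G : ℤ[X] := ∑ i ∈ range M, X ^ i with hG
  have k1 : ∀ y : ℤ[X], X ^ M - 1 ∣ G * y - G * C (y.eval 1) := fun y => by
    rw [← mul_sub, ← geom_sum_mul]
    exact mul_dvd_mul_left _ (X_sub_C_dvd_sub_C_eval (a := 1))
  have k2 : ∀ c : ℕ, (X : ℤ[X]) ^ M - 1 ∣ ∑ i ∈ range (M * c), X ^ i - (c : ℤ[X]) * G := fun c => by
    induction c with
    | zero => simp
    | succ c ih =>
      rw [mul_add, mul_one, add_comm (M * c), sum_range_add]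
      simp only [pow_add (X : ℤ[X]), ← mul_sum]
      refine (dvd_add ih ((dvd_refl _).mul_right (∑ i ∈ range (M * c), X ^ i))).trans
        (dvd_of_eq ?_)
      push_cast; ring
  have k3 : (X : ℤ[X]) ^ M - 1 ∣ X ^ n - 1 := by
    simpa [hN, pow_mul] using sub_dvd_pow_sub_pow (X ^ M : ℤ[X]) 1 (u ^ 2)
  have k4 := k2 (u ^ 2)
  rw [← hN] at k4
  have k5 : (X : ℤ[X]) ^ M - 1 ∣ expand ℤ e G - G := by
    have c1 : M.Coprime e := (Nat.Coprime.coprime_dvd_left ⟨_, hN⟩ (he ▸ by simp))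
    have : NeZero M := ⟨M0⟩
    rw [hG, map_sum, ← Fin.sum_univ_eq_sum_range (fun i => expand ℤ e (X ^ i)),
      ← Fin.sum_univ_eq_sum_range (fun i => (X : ℤ[X]) ^ i), ← Equiv.sum_comp (Equiv.neg (Fin M))
        (fun i : Fin M => (X : ℤ[X]) ^ (i : ℕ)), ← sum_sub_distrib]
    refine dvd_sum fun i _ => ?_
    rw [map_pow, expand_X, ← pow_mul]
    refine pow_cong ?_
    rw [Equiv.neg_apply, Fin.val_neg', Nat.ModEq, Nat.mod_mod]
    refine Nat.ModEq.add_right_cancel' i ?_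
    rw [Nat.sub_add_cancel i.2.le, ← Nat.succ_mul, Nat.succ_eq_add_one, he, hN, mul_assoc]
    simp [Nat.ModEq]
  have k6 : (X : ℤ[X]) ^ M - 1 ∣ expand ℤ e (∑ i ∈ range n, X ^ i) - ((u ^ 2 : ℕ) : ℤ[X]) * G := by
    obtain ⟨y, hy⟩ := k4
    have := congrArg (expand ℤ e) hy
    rw [map_sub, map_mul, map_mul, map_natCast, map_sub, map_pow, expand_X, map_one, ← pow_mul,
      mul_comm e, pow_mul] at this
    have h5 := (sub_dvd_pow_sub_pow (X ^ M : ℤ[X]) 1 e).mul_right (expand ℤ e y)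
    rw [one_pow, ← this] at h5
    exact (dvd_add h5 (k5.mul_left ((u ^ 2 : ℕ) : ℤ[X]))).trans (dvd_of_eq (by ring))
  have k7 := k3.trans hf
  rw [hD, map_sub, map_mul, map_ofNat] at k7
  have k8 := k1 G
  have k9 := k1 D
  have k10 := k1 (expand ℤ e D)
  have e1 : C (G.eval 1) = M := by simp [hG, eval_finset_sum]
  have e2 : ((u ^ 2 : ℕ) : ℤ[X]) = C v ^ 2 := by rw [← C_pow, hv2]; simp
  rw [expand_eval, one_pow, hD1] at k10
  rw [hD1] at k9
  rw [e1, ← hM'] at k8
  rw [e2] at k4 k6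
  rw [hN'] at k7
  refine (dvd_add (dvd_add (dvd_sub (dvd_sub (dvd_sub k7 (k4.mul_right
    (expand ℤ e (∑ i ∈ range n, X ^ i) - 2 * expand ℤ e D))) (k6.mul_left (C v ^ 2 * G - 2 * D)))
    (k8.mul_left (C v ^ 4))) (k9.mul_left (2 * C v ^ 2))) (k10.mul_left (2 * C v ^ 2))).trans
    (dvd_of_eq ?_)
  simp only [map_mul, map_pow, map_ofNat, map_add]
  ring

theorem main {n : ℕ} [NeZero n] {h : Fin n → ℝ} (h1 : ∀ j, h j = 1 ∨ h j = -1)
    {H : Matrix (Fin n) (Fin n) ℝ} (h2 : ∀ i j, H i j = h (j - i))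
    (h3 : H * H.transpose = (n : ℝ) • (1 : Matrix (Fin n) (Fin n) ℝ)) : n = 1 ∨ n = 4 := by
  obtain ⟨d, hd, d1⟩ : ∃ d : Fin n → ℤ, (∀ j, h j = (1 - 2 * d j : ℤ)) ∧ ∀ j, d j = 0 ∨ d j = 1 :=
    ⟨fun j => if h j = 1 then 0 else 1, fun j => by
      rcases h1 j with h | h <;> norm_num [h], fun j => by beta_reduce; split_ifs <;> simp⟩
  have ac : ∀ t, ∑ l, (1 - 2 * d (l + t)) * (1 - 2 * d l) = if t = 0 then (n : ℤ) else 0 := by
    intro t
    have := congrFun (congrFun h3 (-t)) 0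
    simp only [Matrix.mul_apply, Matrix.transpose_apply, h2, hd, sub_neg_eq_add, sub_zero,
      Matrix.smul_apply, Matrix.one_apply, neg_eq_zero, smul_eq_mul, mul_ite, mul_one,
      mul_zero] at this
    exact_mod_cast this
  obtain ⟨e, he⟩ := Nat.exists_eq_succ_of_ne_zero (NeZero.ne n)
  by_cases n1 : n = 1
  · exact Or.inl n1
  refine Or.inr (poly_main he.symm ?_ (f := ∑ k : Fin n, monomial k (1 - 2 * d k))
    (D := ∑ k : Fin n, monomial k (d k)) ?_ ?_)
  · have := ac 1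
    rw [if_neg (by simpa using n1)] at this
    have h4 := congrArg (Int.castRingHom (ZMod 2)) this
    have : (2 : ZMod 2) = 0 := rfl
    simp [map_sum, this] at h4
    exact (ZMod.natCast_eq_zero_iff_even).1 h4
  · rw [← Fin.sum_univ_eq_sum_range (fun i => (X : ℤ[X]) ^ i), mul_sum, ← sum_sub_distrib]
    refine sum_congr rfl fun k _ => ?_
    rw [← C_mul_X_pow_eq_monomial, ← C_mul_X_pow_eq_monomial]
    simp only [map_sub, map_mul, map_one, map_ofNat]
    ring
  · have e1 : (C (n : ℤ) : ℤ[X]) = ∑ l : Fin n, ∑ k : Fin n,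
        monomial (k - l : Fin n) ((1 - 2 * d k) * (1 - 2 * d l)) := by
      have : ∀ l : Fin n, ∑ k : Fin n, monomial (k - l : Fin n) ((1 - 2 * d k) * (1 - 2 * d l)) =
          ∑ t : Fin n, monomial t ((1 - 2 * d (l + t)) * (1 - 2 * d l)) := fun l =>
        (Equiv.sum_comp (Equiv.addLeft l) _).symm.trans (by simp)
      simp only [this]
      rw [sum_comm]
      simp only [← map_sum, ac]
      rw [sum_eq_single 0] <;> simp +contextual
    rw [e1, map_sum, mul_sum, ← sum_sub_distrib]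
    refine dvd_sum fun l _ => ?_
    rw [sum_mul, ← sum_sub_distrib]
    refine dvd_sum fun k _ => ?_
    rw [expand_monomial, monomial_mul_monomial, ← C_mul_X_pow_eq_monomial,
      ← C_mul_X_pow_eq_monomial, ← mul_sub]
    refine (pow_cong ?_).mul_left _
    rw [Fin.val_sub, Nat.ModEq, Nat.mod_mod]
    refine Nat.ModEq.add_right_cancel' l ?_
    have : n - l + k + l = k + n := by have := l.2; omega
    rw [this, add_assoc, ← Nat.mul_succ, ← he]
    simp [Nat.ModEq]

end Vale.Agent.P033
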