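import Mathlib

/-!
Descent through the levels of a cyclic group of prime power order.
-/

open Polynomial

namespace Vale.Agent.P033

theorem prime_pow_or {R : Type} [CommRing R] [IsDomain R] {π x y : R} (hπ : Prime π) {a b c : ℕ}
    (h : π ^ a ∣ x * y) (hab : b + c ≤ a + 1) : π ^ b ∣ x ∨ π ^ c ∣ y := by
  by_contra hc
  push Not at hc
  obtain ⟨h1, h2⟩ := hc
  rw [pow_dvd_iff_le_emultiplicity, not_le] at h1 h2
  rw [pow_dvd_iff_le_emultiplicity, emultiplicity_mul hπ] at h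
  obtain ⟨i, hi⟩ := ENat.ne_top_iff_exists.1 h1.ne_top
  obtain ⟨j, hj⟩ := ENat.ne_top_iff_exists.1 h2.ne_top
  rw [← hi] at h1 h
  rw [← hj] at h2 h
  norm_cast at h h1 h2
  omega

variable {O k : Type} [CommRing O] [IsDomain O] [Field k] {p : ℕ} [Fact p.Prime] [CharP k p]
  {ρ : O →+* k}

theorem monic_level (i : ℕ) : (X ^ p ^ i - 1 : O[X]).Monic :=
  monic_X_pow_sub_C 1 (pow_ne_zero _ (Fact.out : p.Prime).ne_zero)

omit [IsDomain O] in
theorem map_level (i : ℕ) : (X ^ p ^ i - 1 : O[X]).map ρ = (X - C 1) ^ p ^ i := by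
  rw [sub_pow_char_pow]; simp

theorem lift_level (hker : ∀ a, ρ a = 0 → (p : O) ∣ a) {f : O[X]} {i : ℕ}
    (h : (X - C 1) ^ p ^ i ∣ f.map ρ) : ∃ f1, X ^ p ^ i - 1 ∣ f - p * f1 := by
  rw [← map_level (ρ := ρ), ← modByMonic_eq_zero_iff_dvd ((monic_level i).map ρ),
    ← map_modByMonic ρ (monic_level i)] at h
  obtain ⟨f1, h1⟩ := (C_dvd_iff_dvd_coeff (p : O) (f %ₘ (X ^ p ^ i - 1))).2 fun n =>
    hker _ (by rw [← coeff_map, h, coeff_zero])
  refine ⟨f1, f /ₘ (X ^ p ^ i - 1), ?_⟩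
  have := modByMonic_add_div f (X ^ p ^ i - 1)
  rw [h1, map_natCast] at this
  linear_combination -this

theorem cancel_const {M y : O[X]} (hM : M.Monic) {c : O} (hc : c ≠ 0) (h : M ∣ C c * y) :
    M ∣ y := by
  rw [← modByMonic_eq_zero_iff_dvd hM] at h ⊢
  rwa [← smul_eq_C_mul, smul_modByMonic, smul_eq_zero, or_iff_right hc] at h

omit [IsDomain O] [Fact p.Prime] in
theorem level_dvd {i j : ℕ} (h : i ≤ j) : (X ^ p ^ i - 1 : O[X]) ∣ X ^ p ^ j - 1 := by
  obtain ⟨c, rfl⟩ := Nat.exists_eq_add_of_le h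
  simpa [pow_add, pow_mul] using sub_dvd_pow_sub_pow (X ^ p ^ i : O[X]) 1 (p ^ c)

theorem descent (hker : ∀ a, ρ a = 0 → (p : O) ∣ a) (hp : (p : O) ≠ 0) {c : O} (hc : ρ c ≠ 0) :
    ∀ j, ∀ n ≤ j + 1, ∀ f g : O[X], X ^ p ^ (j + 1) - 1 ∣ f * g - p ^ n * C c →
      ∃ e f', X ^ p - 1 ∣ f - p ^ e * f' ∧ ρ (f'.eval 1) ≠ 0 := by
  have ev : ∀ {j n} {f g : O[X]}, X ^ p ^ j - 1 ∣ f * g - p ^ n * C c →
      f.eval 1 * g.eval 1 = p ^ n * c := fun h => by
    simpa [sub_eq_zero] using eval_dvd (x := 1) h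
  have base : ∀ {j} {f g : O[X]}, X ^ p ^ j - 1 ∣ f * g - p ^ 0 * C c → ρ (f.eval 1) ≠ 0 :=
    fun h h0 => hc (by simpa [h0] using (congrArg ρ (ev h)).symm)
  have red : ∀ {j n} {f g : O[X]}, X ^ p ^ j - 1 ∣ f * g - p ^ (n + 1) * C c →
      (X - C 1) ^ p ^ j ∣ f.map ρ * g.map ρ := fun h => by
    have := Polynomial.map_dvd ρ h
    rw [map_level] at this
    simpa using this
  have drop : ∀ {i j n} {f g f1 : O[X]}, i ≤ j → X ^ p ^ j - 1 ∣ f * g - p ^ (n + 1) * C c →
      X ^ p ^ i - 1 ∣ f - p * f1 → X ^ p ^ i - 1 ∣ f1 * g - p ^ n * C c := by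
    intro i j n f g f1 hij h1 h2
    refine cancel_const (monic_level i) hp ?_
    have := dvd_sub ((level_dvd hij).trans h1) (h2.mul_right g)
    convert this using 1
    rw [map_natCast]; ring
  intro j
  induction j with
  | zero =>
    intro n hn f g h
    obtain rfl | n := n
    · exact ⟨0, f, by simp, base h⟩
    obtain rfl : n = 0 := by omega
    by_cases h1 : ρ (f.eval 1) = 0
    · have h2 : ρ (g.eval 1) ≠ 0 := fun h2 => by
        obtain ⟨a, ha⟩ := hker _ h1
        obtain ⟨b, hb⟩ := hker _ h2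
        have := ev h
        rw [ha, hb] at this
        have : c = p * (a * b) := mul_left_cancel₀ hp (by linear_combination -this)
        exact hc (by simp [this])
      rcases prime_pow_or (prime_X_sub_C 1) (red h) (b := p ^ 1) (c := 1) le_rfl with h3 | h3
      · obtain ⟨f1, h4⟩ := lift_level hker h3
        exact ⟨1, f1, by simpa using h4, base (drop le_rfl h h4)⟩
      · rw [pow_one, dvd_iff_isRoot, IsRoot, eval_map, ← ρ.map_one, eval₂_at_apply] at h3
        exact absurd h3 h2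
    · exact ⟨0, f, by simp, h1⟩
  | succ j ih =>
    intro n hn f g h
    obtain rfl | n := n
    · exact ⟨0, f, by simp, base h⟩
    have h2 := (Fact.out : p.Prime).two_le
    rcases prime_pow_or (prime_X_sub_C 1) (red h) (b := p ^ (j + 1)) (c := p ^ (j + 1))
      (by rw [pow_succ p (j + 1)]; nlinarith [Nat.zero_le (p ^ (j + 1))]) with h3 | h3
    · obtain ⟨f1, h4⟩ := lift_level hker h3
      obtain ⟨e, f', h5, h6⟩ := ih n (by omega) f1 g (drop (by omega) h h4)
      refine ⟨e + 1, f', ?_, h6⟩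
      have h7 := (level_dvd (i := 1) (by omega)).trans h4
      rw [pow_one] at h7
      convert dvd_add h7 (h5.mul_left p) using 1
      ring
    · obtain ⟨g1, h4⟩ := lift_level hker h3
      rw [mul_comm f] at h
      exact ih n (by omega) f g1 (by rw [mul_comm f]; exact drop (by omega) h h4)

theorem sub_dvd_aeval {R A : Type} [CommRing R] [CommRing A] [Algebra R A] (a b : A) (f : R[X]) :
    a - b ∣ aeval a f - aeval b f := by
  simpa only [eval_map_algebraMap] using sub_dvd_eval_sub a b (f.map (algebraMap R A))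

theorem expand_sub (q : ℕ) (D : ℤ[X]) : X ^ q - X ∣ expand ℤ q D - D :=
  (sub_dvd_aeval (X ^ q : ℤ[X]) X D).trans
    (dvd_of_eq (congrArg (expand ℤ q D - ·) (aeval_X_left_apply D)))

theorem sq_level {N e : ℕ} (h : N ∣ e + 1) (he : e ≠ 0) :
    X ^ N - 1 ∣ (X : ℤ[X]) ^ (e * e) - X := by
  obtain ⟨t, ht⟩ := h
  obtain ⟨e, rfl⟩ : ∃ e', e = e' + 1 := ⟨e - 1, by omega⟩
  have : (e + 1) * (e + 1) = N * (t * e) + 1 := by rw [← mul_assoc, ← ht]; ring
  rw [this, pow_succ, pow_mul]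
  exact ((sub_dvd_pow_sub_pow (X ^ N : ℤ[X]) 1 (t * e)).mul_right X).trans (dvd_of_eq (by ring))

/-- The coefficient of the identity after reduction modulo `X ^ N - 1`. -/
noncomputable def tau (N : ℕ) : ℤ[X] →ₗ[ℤ] ℤ :=
  lsum fun k => if N ∣ k then LinearMap.id else 0

theorem tau_monomial (N k : ℕ) (a : ℤ) : tau N (monomial k a) = if N ∣ k then a else 0 := by
  rw [tau, lsum_apply, sum_monomial_index _ _ (by simp)]
  split_ifs <;> rfl

theorem tau_level (N : ℕ) (y : ℤ[X]) : tau N ((X ^ N - 1) * y) = 0 := by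
  induction y using Polynomial.induction_on' with
  | add a b ha hb => rw [mul_add, map_add, ha, hb, add_zero]
  | monomial k a =>
    rw [sub_mul, one_mul, X_pow_mul, monomial_mul_X_pow, map_sub, tau_monomial, tau_monomial]
    simp

theorem tau_geom {N : ℕ} (hN : 0 < N) : tau N (∑ i ∈ Finset.range N, X ^ i) = 1 := by
  simp only [map_sum, X_pow_eq_monomial, tau_monomial]
  rw [Finset.sum_eq_single 0] <;> simp [hN.ne']
  intro b h1 h2 h3
  exact absurd (Nat.le_of_dvd (Nat.pos_of_ne_zero h2) h3) (by omega)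

theorem tau_symm {N e : ℕ} (he : N ∣ e + 1) (a b : ℤ[X]) :
    tau N (a * expand ℤ e b) = tau N (b * expand ℤ e a) := by
  have k : ∀ i j, N ∣ i + j * e → N ∣ j + i * e := fun i j h => by
    have h1 : (N : ℤ) ∣ e + 1 := by exact_mod_cast he
    have h2 : (N : ℤ) ∣ i + j * e := by exact_mod_cast h
    have : (N : ℤ) ∣ j + i * e := (dvd_sub (h1.mul_left (i + j)) h2).trans (dvd_of_eq (by ring))
    exact_mod_cast this
  induction a using Polynomial.induction_on' with
  | add a a' h1 h2 => simp only [add_mul, mul_add, map_add, h1, h2]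
  | monomial i x =>
    induction b using Polynomial.induction_on' with
    | add b b' h1 h2 => simp only [add_mul, mul_add, map_add, h1, h2]
    | monomial j y =>
      simp only [expand_monomial, monomial_mul_monomial, tau_monomial, mul_comm x]
      exact if_congr ⟨k _ _, k _ _⟩ rfl rfl

theorem tau_self {N e : ℕ} (he : N ∣ e + 1) (a : ℤ[X]) :
    2 ∣ tau N (a * expand ℤ e a) - a.eval 1 := by
  induction a using Polynomial.induction_on' with
  | add a b h1 h2 =>
    simp only [add_mul, mul_add, map_add, eval_add, tau_symm he b a]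
    omega
  | monomial i x =>
    have : N ∣ i + i * e := by simpa [mul_add, add_comm] using he.mul_left i
    simp only [expand_monomial, monomial_mul_monomial, tau_monomial, this, if_true, eval_monomial]
    simpa [mul_sub] using (Int.even_mul_pred_self x).two_dvd

theorem two_part (s : ℕ) : ∀ (j e : ℕ) (D : ℤ[X]) (c u : ℤ), s ≤ j → 2 ^ (j + 3) ∣ e + 1 →
    Odd c → Odd u → D.eval 1 = 2 ^ s * u + c * 2 ^ (j + 2) →
    ¬X ^ 2 ^ (j + 3) - 1 ∣ D * expand ℤ e D - C ((2 ^ s * u) ^ 2) -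
      C (c * (2 ^ s * u) + c ^ 2 * 2 ^ (j + 1)) * ∑ i ∈ Finset.range (2 ^ (j + 3)), X ^ i := by
  induction s with
  | zero =>
    rintro j e D c u - he ⟨a, rfl⟩ ⟨b, rfl⟩ h1 ⟨y, hy⟩
    have h2 := congrArg (tau (2 ^ (j + 3))) hy
    have h3 := tau_self he D
    rw [tau_level, map_sub, map_sub, ← smul_eq_C_mul, map_smul, tau_geom (by positivity),
      ← monomial_zero_left, tau_monomial, if_pos (dvd_zero _)] at h2
    rw [h1, sub_sub, sub_eq_zero] at *
    rw [h2] at h3
    have : (2 : ℤ) ∣ 1 := by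
      refine (dvd_sub ((dvd_refl (2 : ℤ)).mul_right (2 * b ^ 2 + 2 * b + 2 * a * b + a + 1 +
        (2 * a + 1) ^ 2 * 2 ^ j - (2 * a + 1) * 2 ^ (j + 1))) h3).trans (dvd_of_eq ?_)
      simp only [smul_eq_mul]
      ring
    omega
  | succ s ih =>
    intro j e D c u hj he hc hu h1 h
    obtain ⟨j, rfl⟩ : ∃ i, j = i + 1 := ⟨j - 1, by omega⟩
    have hker : ∀ a, Int.castRingHom (ZMod 2) a = 0 → ((2 : ℕ) : ℤ) ∣ a := fun a h =>
      (ZMod.intCast_zmod_eq_zero_iff_dvd a 2).1 h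
    have g1 := mul_geom_sum (X : ℤ[X]) (2 ^ (j + 4))
    have star : ∀ y : ℤ[X], X ^ 2 ^ (j + 3) - 1 ∣ y → X ^ 2 ^ (j + 3) - 1 ∣ expand ℤ e y := by
      rintro _ ⟨y, rfl⟩
      rw [map_mul, map_sub, map_pow, expand_X, map_one, ← pow_mul, mul_comm e, pow_mul]
      simpa using (sub_dvd_pow_sub_pow (X ^ 2 ^ (j + 3) : ℤ[X]) 1 e).mul_right _
    obtain ⟨D1, hD⟩ : ∃ D1, X ^ 2 ^ (j + 3) - 1 ∣ D - ((2 : ℕ) : ℤ[X]) * D1 := by
      have h2 : X ^ 2 ^ (j + 4) - 1 ∣ (X - 1) * (D * expand ℤ e D) -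
          ((2 : ℕ) : ℤ[X]) * ((X - 1) * C (2 * (2 ^ s * u) ^ 2)) := by
        refine (dvd_add (h.mul_left (X - 1)) ((dvd_refl (X ^ 2 ^ (j + 4) - 1 : ℤ[X])).mul_left
          (C (c * (2 ^ (s + 1) * u) + c ^ 2 * 2 ^ (j + 2))))).trans (dvd_of_eq ?_)
        rw [← g1]
        simp only [map_mul, map_pow, map_ofNat, Nat.cast_ofNat, map_add]
        ring
      have h3 := Polynomial.map_dvd (Int.castRingHom (ZMod 2)) h2
      rw [map_level, Polynomial.map_sub, Polynomial.map_mul _ (p := ((2 : ℕ) : ℤ[X])),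
        Polynomial.map_natCast, CharP.cast_eq_zero, zero_mul, sub_zero, Polynomial.map_mul,
        Polynomial.map_mul, Polynomial.map_sub, map_X, Polynomial.map_one, ← C_1,
        show 2 ^ (j + 4) = 2 ^ (j + 4) - 1 + 1 from (Nat.sub_add_cancel Nat.one_le_two_pow).symm,
        pow_succ', mul_dvd_mul_iff_left (X_sub_C_ne_zero 1)] at h3
      rcases prime_pow_or (prime_X_sub_C 1) h3 (b := 2 ^ (j + 3)) (c := 2 ^ (j + 3))
        (by rw [pow_succ 2 (j + 3)]; omega) with h4 | h4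
      · exact lift_level hker h4
      · obtain ⟨E, hE⟩ := lift_level hker h4
        refine ⟨expand ℤ e E, ?_⟩
        have h5 := star _ hE
        rw [map_sub, map_mul, map_natCast, expand_expand] at h5
        have h6 : X ^ 2 ^ (j + 3) - 1 ∣ (X : ℤ[X]) ^ (e * e) - X := by
          refine sq_level ((pow_dvd_pow 2 (by omega : j + 3 ≤ j + 1 + 3)).trans he) ?_
          have : 2 ∣ e + 1 := (dvd_pow_self 2 (by omega)).trans he
          omega
        have h7 := h6.trans (expand_sub _ D)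
        exact (dvd_sub h5 h7).trans (dvd_of_eq (by ring))
    refine ih j e D1 c u (by omega) ((pow_dvd_pow 2 (by omega)).trans he) hc hu ?_ ?_
    · have := eval_dvd (x := 1) hD
      simp only [eval_sub, eval_pow, eval_X, one_pow, eval_one, sub_self, zero_dvd_iff, eval_mul,
        eval_natCast, h1] at this
      push_cast at this
      refine mul_left_cancel₀ two_ne_zero ?_
      linear_combination -this
    · refine cancel_const (monic_level _) (c := 4) (by norm_num) ?_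
      have h2 := (level_dvd (i := j + 3) (by omega)).trans h
      have h3 := star _ hD
      rw [map_sub, map_mul, map_natCast] at h3
      have h4 : X ^ 2 ^ (j + 3) - 1 ∣ ∑ i ∈ Finset.range (2 ^ (j + 1 + 3)), (X : ℤ[X]) ^ i -
          2 * ∑ i ∈ Finset.range (2 ^ (j + 3)), X ^ i := by
        rw [show 2 ^ (j + 1 + 3) = 2 ^ (j + 3) + 2 ^ (j + 3) by ring, Finset.sum_range_add]
        simp only [pow_add (X : ℤ[X]), ← Finset.mul_sum]
        exact ⟨∑ i ∈ Finset.range (2 ^ (j + 3)), X ^ i, by ring⟩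
      refine (dvd_add (dvd_sub (dvd_sub h2 (hD.mul_right (expand ℤ e D))) (h3.mul_left (2 * D1)))
        (h4.mul_left (C (c * (2 ^ (s + 1) * u) + c ^ 2 * 2 ^ (j + 1 + 1))))).trans (dvd_of_eq ?_)
      simp only [map_mul, map_pow, map_ofNat, Nat.cast_ofNat, map_add]
      ring

end Vale.Agent.P033
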